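import Vale.Agent.P272.K.QN.Defs

/-!
# Block PT: the scalar integrals
-/

open scoped ComplexConjugate ComplexOrder
open Matrix MeasureTheory

set_option linter.all false

noncomputable section

namespace Vale.Agent.P272.K.QN.H327

variable {n : ℕ} {η : Fin n → ℝ}

lemma den_pos (hη : ∀ k, 0 ≤ η k) {s : ℝ} (hs : 0 ≤ s) (k : Fin n) : 0 < 1 + s * η k := by
  have := mul_nonneg hs (hη k); linarith

lemma cc_pos (hη : ∀ k, 0 ≤ η k) {s : ℝ} (hs : 0 ≤ s) (k : Fin n) : 0 < cc η s k :=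
  inv_pos.2 (den_pos hη hs k)

lemma cc_le_one (hη : ∀ k, 0 ≤ η k) {s : ℝ} (hs : 0 ≤ s) (k : Fin n) : cc η s k ≤ 1 :=
  inv_le_one_of_one_le₀ (by have := mul_nonneg hs (hη k); linarith)

lemma hasDerivAt_cc (hη : ∀ k, 0 ≤ η k) {s : ℝ} (hs : 0 ≤ s) (k : Fin n) :
    HasDerivAt (fun s => cc η s k) (-(η k * cc η s k ^ 2)) s := by
  have h1 : HasDerivAt (fun s : ℝ => 1 + s * η k) (η k) s := by
    simpa using ((hasDerivAt_id s).mul_const (η k)).const_add 1
  have h2 := h1.inv (den_pos hη hs k).ne'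
  refine h2.congr_deriv ?_
  rw [cc, inv_pow, neg_div, div_eq_mul_inv]

/-- `Π` -/
def Pi' (η : Fin n → ℝ) (s : ℝ) : ℝ := ∏ k, cc η s k

/-- `t = tr(Ch)` -/
def tt (η : Fin n → ℝ) (s : ℝ) : ℝ := ∑ k, cc η s k * η k

/-- `r = tr(ChCg)` -/
def rr (η : Fin n → ℝ) (s : ℝ) : ℝ := ∑ k, cc η s k ^ 2 * η k

lemma hasDerivAt_Pi (hη : ∀ k, 0 ≤ η k) {s : ℝ} (hs : 0 ≤ s) :
    HasDerivAt (Pi' η) (-(Pi' η s * tt η s)) s := by
  have h := HasDerivAt.fun_finset_prod (u := (Finset.univ : Finset (Fin n)))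
    (f := fun k s => cc η s k) (f' := fun k => -(η k * cc η s k ^ 2))
    (fun k _ => hasDerivAt_cc hη hs k)
  refine h.congr_deriv ?_
  rw [tt, Finset.mul_sum, ← Finset.sum_neg_distrib]
  refine Finset.sum_congr rfl fun k _ => ?_
  rw [Pi', ← Finset.mul_prod_erase Finset.univ (fun k => cc η s k) (Finset.mem_univ k), smul_eq_mul]
  ring

lemma hasDerivAt_tt (hη : ∀ k, 0 ≤ η k) {s : ℝ} (hs : 0 ≤ s) :
    HasDerivAt (tt η) (-(∑ k, cc η s k ^ 2 * η k ^ 2)) s := by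
  have h := HasDerivAt.fun_sum (u := (Finset.univ : Finset (Fin n)))
    (A := fun k s => cc η s k * η k) (A' := fun k => -(η k * cc η s k ^ 2) * η k)
    (fun k _ => (hasDerivAt_cc hη hs k).mul_const (η k))
  refine h.congr_deriv ?_
  rw [← Finset.sum_neg_distrib]
  refine Finset.sum_congr rfl fun k _ => ?_
  ring

lemma Pi_nonneg (hη : ∀ k, 0 ≤ η k) {s : ℝ} (hs : 0 ≤ s) : 0 ≤ Pi' η s :=
  Finset.prod_nonneg fun k _ => (cc_pos hη hs k).le

lemma Pi_le_one (hη : ∀ k, 0 ≤ η k) {s : ℝ} (hs : 0 ≤ s) : Pi' η s ≤ 1 :=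
  Finset.prod_le_one (fun k _ => (cc_pos hη hs k).le) fun k _ => cc_le_one hη hs k

lemma tt_nonneg (hη : ∀ k, 0 ≤ η k) {s : ℝ} (hs : 0 ≤ s) : 0 ≤ tt η s :=
  Finset.sum_nonneg fun k _ => mul_nonneg (cc_pos hη hs k).le (hη k)

lemma tt_le (hη : ∀ k, 0 ≤ η k) {s : ℝ} (hs : 0 < s) : tt η s ≤ n / s := by
  have : ∀ k, cc η s k * η k ≤ 1 / s := by
    intro k
    rw [cc, le_div_iff₀ hs, inv_mul_eq_div, div_mul_eq_mul_div, div_le_one (den_pos hη hs.le k)]
    linarith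
  calc tt η s ≤ ∑ k : Fin n, 1 / s := Finset.sum_le_sum fun k _ => this k
    _ = n / s := by rw [Finset.sum_const, Finset.card_univ, Fintype.card_fin, nsmul_eq_mul]; ring

lemma rr_le_tt (hη : ∀ k, 0 ≤ η k) {s : ℝ} (hs : 0 ≤ s) : rr η s ≤ tt η s := by
  refine Finset.sum_le_sum fun k _ => mul_le_mul_of_nonneg_right ?_ (hη k)
  have h1 := cc_pos hη hs k
  have h2 := cc_le_one hη hs k
  nlinarith

lemma continuousOn_cc (hη : ∀ k, 0 ≤ η k) (S : ℝ) (k : Fin n) :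
    ContinuousOn (fun s => cc η s k) (Set.Icc 0 S) := fun s hs =>
  (hasDerivAt_cc hη hs.1 k).continuousAt.continuousWithinAt

lemma continuousOn_Pi (hη : ∀ k, 0 ≤ η k) (S : ℝ) :
    ContinuousOn (Pi' η) (Set.Icc 0 S) := fun s hs =>
  (hasDerivAt_Pi hη hs.1).continuousAt.continuousWithinAt

lemma continuousOn_tt (hη : ∀ k, 0 ≤ η k) (S : ℝ) :
    ContinuousOn (tt η) (Set.Icc 0 S) := fun s hs =>
  (hasDerivAt_tt hη hs.1).continuousAt.continuousWithinAt

lemma continuousOn_rr (hη : ∀ k, 0 ≤ η k) (S : ℝ) :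
    ContinuousOn (rr η) (Set.Icc 0 S) :=
  continuousOn_finset_sum _ fun k _ => ((continuousOn_cc hη S k).pow 2).mul continuousOn_const

lemma ii_of_cont {f : ℝ → ℝ} {S : ℝ} (hS : 0 ≤ S) (hf : ContinuousOn f (Set.Icc 0 S)) :
    IntervalIntegrable f volume 0 S :=
  ContinuousOn.intervalIntegrable (by rwa [Set.uIcc_of_le hS])

/-- `∫ Π tr(ChCg) ≤ 1` -/
theorem int_rr_le (hη : ∀ k, 0 ≤ η k) {S : ℝ} (hS : 0 ≤ S) :
    ∫ s in (0 : ℝ)..S, Pi' η s * rr η s ≤ 1 := by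
  have h1 : ∫ s in (0 : ℝ)..S, Pi' η s * rr η s ≤ ∫ s in (0 : ℝ)..S, Pi' η s * tt η s := by
    refine intervalIntegral.integral_mono_on hS ?_ ?_ fun s hs => ?_
    · exact ii_of_cont hS ((continuousOn_Pi hη S).mul (continuousOn_rr hη S))
    · exact ii_of_cont hS ((continuousOn_Pi hη S).mul (continuousOn_tt hη S))
    · exact mul_le_mul_of_nonneg_left (rr_le_tt hη hs.1) (Pi_nonneg hη hs.1)
  have h2 : ∫ s in (0 : ℝ)..S, -(Pi' η s * tt η s) = Pi' η S - Pi' η 0 := by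
    refine intervalIntegral.integral_eq_sub_of_hasDerivAt (fun s hs => ?_) ?_
    · rw [Set.uIcc_of_le hS] at hs
      exact hasDerivAt_Pi hη hs.1
    · exact (ii_of_cont hS ((continuousOn_Pi hη S).mul (continuousOn_tt hη S))).neg
  rw [intervalIntegral.integral_neg] at h2
  have h3 : Pi' η 0 = 1 := by simp [Pi', cc]
  have h4 := Pi_nonneg hη hS
  linarith

/-- `2 ∫ Π (tr Ch)² ≥ T - n/S` -/
theorem int_tt_ge (hη : ∀ k, 0 ≤ η k) {S : ℝ} (hS : 0 < S) :
    (∑ k, η k) - n / S ≤ 2 * ∫ s in (0 : ℝ)..S, Pi' η s * tt η s ^ 2 := by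
  have hq : ContinuousOn (fun s => ∑ k, cc η s k ^ 2 * η k ^ 2) (Set.Icc 0 S) :=
    continuousOn_finset_sum _ fun k _ => ((continuousOn_cc hη S k).pow 2).mul continuousOn_const
  have h2 : ∫ s in (0 : ℝ)..S, (-(Pi' η s * tt η s) * tt η s +
      Pi' η s * -(∑ k, cc η s k ^ 2 * η k ^ 2)) = Pi' η S * tt η S - Pi' η 0 * tt η 0 := by
    refine intervalIntegral.integral_eq_sub_of_hasDerivAt (f := fun s => Pi' η s * tt η s)
      (fun s hs => ?_) ?_
    · rw [Set.uIcc_of_le hS.le] at hs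
      exact (hasDerivAt_Pi hη hs.1).mul (hasDerivAt_tt hη hs.1)
    · exact ii_of_cont hS.le (((((continuousOn_Pi hη S).mul (continuousOn_tt hη S)).neg).mul
        (continuousOn_tt hη S)).add ((continuousOn_Pi hη S).mul hq.neg))
  have h3 : ∫ s in (0 : ℝ)..S, (-2) * (Pi' η s * tt η s ^ 2) ≤
      ∫ s in (0 : ℝ)..S, (-(Pi' η s * tt η s) * tt η s +
      Pi' η s * -(∑ k, cc η s k ^ 2 * η k ^ 2)) := by
    refine intervalIntegral.integral_mono_on hS.le ?_ ?_ fun s hs => ?_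
    · exact ii_of_cont hS.le (continuousOn_const.mul
        ((continuousOn_Pi hη S).mul ((continuousOn_tt hη S).pow 2)))
    · exact ii_of_cont hS.le (((((continuousOn_Pi hη S).mul (continuousOn_tt hη S)).neg).mul
        (continuousOn_tt hη S)).add ((continuousOn_Pi hη S).mul hq.neg))
    · have h4 : ∑ k, cc η s k ^ 2 * η k ^ 2 ≤ tt η s ^ 2 := by
        have := Finset.sum_sq_le_sq_sum_of_nonneg (s := (Finset.univ : Finset (Fin n)))
          (f := fun k => cc η s k * η k) (fun k _ => mul_nonneg (cc_pos hη hs.1 k).le (hη k))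
        simpa [mul_pow, tt] using this
      have h5 := mul_le_mul_of_nonneg_left h4 (Pi_nonneg hη hs.1)
      nlinarith
  rw [intervalIntegral.integral_const_mul] at h3
  have h6 : Pi' η 0 = 1 := by simp [Pi', cc]
  have h7 : tt η 0 = ∑ k, η k := by simp [tt, cc]
  have h8 : Pi' η S * tt η S ≤ n / S := by
    have a := tt_le hη hS
    have b := Pi_le_one hη hS.le
    have c := Pi_nonneg hη hS.le
    have d := tt_nonneg hη hS.le
    calc Pi' η S * tt η S ≤ 1 * tt η S := mul_le_mul_of_nonneg_right b d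
      _ ≤ n / S := by rw [one_mul]; exact a
  rw [h2, h6, h7] at h3
  linarith

end Vale.Agent.P272.K.QN.H327
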