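import Vale.Agent.P272.K.QN.H327.Diag
import Vale.Agent.P272.K.QN.H327.Scal

/-!
# Block PT: the pointwise theorem
-/

open scoped ComplexConjugate ComplexOrder
open Matrix MeasureTheory

set_option linter.all false

noncomputable section

namespace Vale.Agent.P272.K.QN.H327

variable {n p : ℕ}

/-- `C` in the frame -/
def Cs (U : Matrix (Fin n) (Fin n) ℂ) (c : Fin n → ℝ) : Matrix (Fin n) (Fin n) ℂ :=
  Uᴴ * Matrix.diagonal (fun k => ((c k : ℝ) : ℂ)) * U

/-- `B` in the frame -/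
def Bs (U : Matrix (Fin n) (Fin n) ℂ) (c : Fin n → ℝ) : Matrix (Fin n) (Fin n) ℂ :=
  Uᴴ * Matrix.diagonal (fun k => ((c k ^ 2 : ℝ) : ℂ)) * U

lemma continuous_Cs (U : Matrix (Fin n) (Fin n) ℂ) : Continuous (Cs U) := by
  unfold Cs
  refine Continuous.matrix_mul (Continuous.matrix_mul continuous_const ?_) continuous_const
  exact Continuous.matrix_diagonal (by fun_prop)

lemma continuous_Bs (U : Matrix (Fin n) (Fin n) ℂ) : Continuous (Bs U) := by
  unfold Bs
  refine Continuous.matrix_mul (Continuous.matrix_mul continuous_const ?_) continuous_const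
  exact Continuous.matrix_diagonal (by fun_prop)

/-- continuity of `cE` -/
lemma continuous_cE {α : Type*} [TopologicalSpace α] {C : α → Matrix (Fin n) (Fin n) ℂ}
    (hC : Continuous C) (E : Fin n → Fin n → Matrix (Fin n) (Fin n) ℂ) :
    Continuous fun a => cE (C a) E := by
  unfold cE
  refine continuous_finset_sum _ fun k _ => continuous_finset_sum _ fun l _ => ?_
  have e1 : ∀ i j, Continuous fun a => C a i j := fun i j => hC.matrix_elem i j
  have e2 : Continuous fun a => (C a * E k l).trace :=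
    (hC.matrix_mul continuous_const).matrix_trace
  have e3 : Continuous fun a => (C a * E k l * C a) l k :=
    ((hC.matrix_mul continuous_const).matrix_mul hC).matrix_elem l k
  exact ((e1 l k).mul e2).add e3

lemma continuous_cN {α : Type*} [TopologicalSpace α] {s : α → ℝ} (hs : Continuous s)
    {C B : α → Matrix (Fin n) (Fin n) ℂ}
    (hC : Continuous C) (hB : Continuous B) (N : Fin n → Matrix (Fin n) (Fin n) ℂ) :
    Continuous fun a => cN (s a) (C a) (B a) N := by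
  unfold cN
  refine continuous_finset_sum _ fun k _ => continuous_finset_sum _ fun l _ => ?_
  have hs' : Continuous fun a => ((s a : ℝ) : ℂ) := Complex.continuous_ofReal.comp hs
  have e1 : Continuous fun a => C a l k := hC.matrix_elem l k
  have t : ∀ X : Matrix (Fin n) (Fin n) ℂ, Continuous fun a => (C a * X).trace := fun X =>
    (hC.matrix_mul continuous_const).matrix_trace
  have m : ∀ X : Matrix (Fin n) (Fin n) ℂ, Continuous fun a => (C a * X) := fun X =>
    (hC.matrix_mul continuous_const)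
  have e3 : Continuous fun a => (C a * N k * C a) l k := ((m _).matrix_mul hC).matrix_elem l k
  have e4 : Continuous fun a => (C a * (N l)ᴴ * C a) l k := ((m _).matrix_mul hC).matrix_elem l k
  have e5 : Continuous fun a => (C a * (N l)ᴴ * C a * N k).trace :=
    (((m _).matrix_mul hC).matrix_mul continuous_const).matrix_trace
  have e6 : Continuous fun a => (C a * (N l)ᴴ * C a * N k * C a) l k :=
    ((((m _).matrix_mul hC).matrix_mul continuous_const).matrix_mul hC).matrix_elem l k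
  have e7 : Continuous fun a => (C a * N k * C a * (N l)ᴴ * C a) l k :=
    ((((m _).matrix_mul hC).matrix_mul continuous_const).matrix_mul hC).matrix_elem l k
  have e8 : Continuous fun a => (C a * N k * B a) l k := ((m _).matrix_mul hB).matrix_elem l k
  have e9 : Continuous fun a => (C a * N k * B a * (N l)ᴴ * C a) l k :=
    ((((m _).matrix_mul hB).matrix_mul continuous_const).matrix_mul hC).matrix_elem l k
  have e10 : Continuous fun a => (C a * (N l)ᴴ * B a) l k :=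
    ((m _).matrix_mul hB).matrix_elem l k
  have e11 : Continuous fun a => (C a * (N l)ᴴ * B a * N k * C a) l k :=
    ((((m _).matrix_mul hB).matrix_mul continuous_const).matrix_mul hC).matrix_elem l k
  have t1 := t (N k)
  have t2 := t (N l)ᴴ
  fun_prop

/-- the integrand as a function of `s` and `c` -/
def Phi (U h Rc : Matrix (Fin n) (Fin n) ℂ) (E : Fin n → Fin n → Matrix (Fin n) (Fin n) ℂ)
    (N : Fin n → Matrix (Fin n) (Fin n) ℂ) (x : ℝ × (Fin n → ℝ)) : ℝ :=
  (∏ k, x.2 k) * (cE (Cs U x.2) E + 2 * (Cs U x.2 * h * Cs U x.2 * Rc).trace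
    + cN x.1 (Cs U x.2) (Bs U x.2) N).re

lemma continuous_Phi (U h Rc : Matrix (Fin n) (Fin n) ℂ)
    (E : Fin n → Fin n → Matrix (Fin n) (Fin n) ℂ)
    (N : Fin n → Matrix (Fin n) (Fin n) ℂ) : Continuous (Phi U h Rc E N) := by
  unfold Phi
  have hC : Continuous fun x : ℝ × (Fin n → ℝ) => Cs U x.2 :=
    (continuous_Cs U).comp continuous_snd
  have hB : Continuous fun x : ℝ × (Fin n → ℝ) => Bs U x.2 :=
    (continuous_Bs U).comp continuous_snd
  have e1 := continuous_cE hC E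
  have e2 := continuous_cN continuous_fst hC hB N
  have e3 : Continuous fun x : ℝ × (Fin n → ℝ) => (Cs U x.2 * h * Cs U x.2 * Rc).trace :=
    (((hC.matrix_mul continuous_const).matrix_mul hC).matrix_mul continuous_const).matrix_trace
  refine Continuous.mul (by fun_prop) (Complex.continuous_re.comp ?_)
  fun_prop

section frame

variable {T U g h : Matrix (Fin n) (Fin n) ℂ} {η : Fin n → ℝ}

lemma Cs_eq (hη : ∀ k, 0 ≤ η k) (hUT : U * T = 1) (hTU : T * U = 1)
    (hg : g = T * Tᴴ) (hh : h = T * Matrix.diagonal (fun k => ((η k : ℝ) : ℂ)) * Tᴴ)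
    {s : ℝ} (hs : 0 ≤ s) : (g + (s : ℂ) • h)⁻¹ = Cs U (cc η s) := by
  apply Matrix.inv_eq_left_inv
  have e1 : g + (s : ℂ) • h = T * Matrix.diagonal (fun k => (((1 + s * η k : ℝ)) : ℂ)) * Tᴴ := by
    have : (Matrix.diagonal (fun k => (((1 + s * η k : ℝ)) : ℂ)) : Matrix (Fin n) (Fin n) ℂ) =
        1 + (s : ℂ) • Matrix.diagonal (fun k => ((η k : ℝ) : ℂ)) := by
      ext i j
      by_cases hij : i = j
      · subst hij; simp
      · simp [Matrix.diagonal_apply_ne _ hij, Matrix.one_apply_ne hij]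
    rw [this, hg, hh]
    simp only [Matrix.mul_add, Matrix.add_mul, Matrix.mul_one, Matrix.mul_smul, Matrix.smul_mul]
  rw [e1, Cs, r1 hUT, Matrix.diagonal_mul_diagonal]
  have e2 : (fun k => ((cc η s k : ℝ) : ℂ) * (((1 + s * η k : ℝ)) : ℂ)) = fun _ => 1 := by
    funext k
    rw [← Complex.ofReal_mul, cc, inv_mul_cancel₀ (den_pos hη hs k).ne', Complex.ofReal_one]
  rw [e2, Matrix.diagonal_one, Matrix.mul_one, ← conjTranspose_mul, hTU, conjTranspose_one]

lemma Bs_eq (hUT : U * T = 1) (hTU : T * U = 1) (hg : g = T * Tᴴ) (c : Fin n → ℝ) :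
    Cs U c * g * Cs U c = Bs U c := by
  have e1 : g = T * 1 * Tᴴ := by rw [hg, Matrix.mul_one]
  rw [e1, Cs, r1 hUT, r3 hUT, Matrix.mul_one, Matrix.diagonal_mul_diagonal, Bs]
  congr 3
  funext k
  push_cast
  ring

lemma ChC_eq (hUT : U * T = 1)
    (hh : h = T * Matrix.diagonal (fun k => ((η k : ℝ) : ℂ)) * Tᴴ) (c : Fin n → ℝ) :
    Cs U c * h * Cs U c = Uᴴ * Matrix.diagonal (fun k => ((c k ^ 2 * η k : ℝ) : ℂ)) * U := by
  rw [hh, Cs, r1 hUT, r3 hUT, Matrix.diagonal_mul_diagonal, Matrix.diagonal_mul_diagonal]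
  congr 3
  funext k
  push_cast
  ring

lemma trace_Ch (hUT : U * T = 1)
    (hh : h = T * Matrix.diagonal (fun k => ((η k : ℝ) : ℂ)) * Tᴴ) (c : Fin n → ℝ) :
    (Cs U c * h).trace = ((∑ k, c k * η k : ℝ) : ℂ) := by
  rw [hh, Cs, r1 hUT, r2 hUT, Matrix.diagonal_mul_diagonal, Matrix.trace_diagonal]
  push_cast
  rfl

lemma psd_diag {c : Fin n → ℝ} (hc : ∀ k, 0 ≤ c k) (U : Matrix (Fin n) (Fin n) ℂ) :
    (Uᴴ * Matrix.diagonal (fun k => ((c k : ℝ) : ℂ)) * U).PosSemidef := by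
  have h1 : (Matrix.diagonal (fun k => ((c k : ℝ) : ℂ)) : Matrix (Fin n) (Fin n) ℂ).PosSemidef :=
    Matrix.PosSemidef.diagonal fun k => by
      show (0 : ℂ) ≤ ((c k : ℝ) : ℂ)
      exact Complex.zero_le_real.2 (hc k)
  exact h1.conjTranspose_mul_mul_same U

/-- the Ricci term -/
lemma ricci_ge (hη : ∀ k, 0 ≤ η k) (hUT : U * T = 1) (hg : g = T * Tᴴ)
    (hh : h = T * Matrix.diagonal (fun k => ((η k : ℝ) : ℂ)) * Tᴴ)
    {Rc : Matrix (Fin n) (Fin n) ℂ} (hR : (Rc + g).PosSemidef) (c : Fin n → ℝ) :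
    -(∑ k, c k ^ 2 * η k) ≤ (Cs U c * h * Cs U c * Rc).trace.re := by
  have h1 : (Cs U c * h * Cs U c).PosSemidef := by
    rw [ChC_eq hUT hh]
    exact psd_diag (fun k => mul_nonneg (sq_nonneg _) (hη k)) U
  have h2 := C2.trace_mul_nonneg h1 hR
  rw [Matrix.mul_add, Matrix.trace_add] at h2
  have h3 : (Cs U c * h * Cs U c * g).trace = ((∑ k, c k ^ 2 * η k : ℝ) : ℂ) := by
    have e1 : g = T * 1 * Tᴴ := by rw [hg, Matrix.mul_one]
    rw [ChC_eq hUT hh, e1, r1 hUT, r2 hUT, Matrix.mul_one, Matrix.trace_diagonal]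
    push_cast
    rfl
  rw [h3] at h2
  have h4 := (Complex.le_def.1 h2).1
  rw [Complex.add_re, Complex.ofReal_re, Complex.zero_re] at h4
  linarith

/-- the curvature term -/
lemma curv_ge (hUT : U * T = 1)
    (hh : h = T * Matrix.diagonal (fun k => ((η k : ℝ) : ℂ)) * Tᴴ)
    {P : Fin n → Fin n → Matrix (Fin n) (Fin n) ℂ} {κ : ℝ} (hκ : 0 ≤ κ)
    (hP : ∀ ξ : Fin n → ℂ, κ * (P1.herm h ξ).re ^ 2 ≤ (P1.quart P ξ ξ ξ ξ).re)
    {c : Fin n → ℝ} (hc : ∀ k, 0 ≤ c k) :
    κ * (∑ k, c k * η k) ^ 2 ≤ (cE (Cs U c) P).re := by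
  obtain ⟨B, hB⟩ := C2.exists_factor (psd_diag hc U)
  have h1 := P1.avg_ineq P (Gi := Cs U c) (H := h) hB hκ hP
  rw [trace_Ch hUT hh, Complex.ofReal_re] at h1
  refine h1.trans (le_of_eq ?_)
  simp only [cE, Finset.sum_add_distrib]

end frame

lemma det_prod {T U g : Matrix (Fin n) (Fin n) ℂ} (hUT : U * T = 1) (hg : g = T * Tᴴ)
    (c : Fin n → ℝ) : g.det.re * (Cs U c).det.re = ∏ k, c k := by
  have h1 : g.det = ((Complex.normSq T.det : ℝ) : ℂ) := by
    rw [hg, Matrix.det_mul, Matrix.det_conjTranspose, ← Complex.mul_conj]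
    rfl
  have h2 : (Cs U c).det = ((Complex.normSq U.det * ∏ k, c k : ℝ) : ℂ) := by
    rw [Cs, Matrix.det_mul, Matrix.det_mul, Matrix.det_conjTranspose, Matrix.det_diagonal]
    push_cast
    rw [← Complex.mul_conj]
    have : star U.det = conj U.det := rfl
    rw [this]
    ring
  have h3 : U.det * T.det = 1 := by rw [← Matrix.det_mul, hUT, Matrix.det_one]
  have h4 : Complex.normSq T.det * Complex.normSq U.det = 1 := by
    rw [← Complex.normSq_mul, mul_comm, h3, Complex.normSq_one]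
  rw [h1, h2, Complex.ofReal_re, Complex.ofReal_re, ← mul_assoc, h4, one_mul]

/-- the integrand of block PW -/
def pw (η : Fin n → ℝ) (N : Fin n → Matrix (Fin n) (Fin n) ℂ) (x : ℝ × (Fin n → ℝ)) : ℝ :=
  (∏ k, x.2 k) *
      (∑ k, ∑ i, ∑ j, x.2 k * x.2 i * (η j)⁻¹ * (‖N k i j + N i k j‖ ^ 2 / 2)
        + (cN x.1 (Matrix.diagonal fun k => ((x.2 k : ℝ) : ℂ))
            (Matrix.diagonal fun k => (((x.2 k) ^ 2 : ℝ) : ℂ)) N).re)

lemma continuous_pw (η : Fin n → ℝ) (N : Fin n → Matrix (Fin n) (Fin n) ℂ) :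
    Continuous (pw η N) := by
  unfold pw
  have hC : Continuous fun x : ℝ × (Fin n → ℝ) =>
      (Matrix.diagonal fun k => ((x.2 k : ℝ) : ℂ) : Matrix (Fin n) (Fin n) ℂ) :=
    Continuous.matrix_diagonal (by fun_prop)
  have hB : Continuous fun x : ℝ × (Fin n → ℝ) =>
      (Matrix.diagonal fun k => (((x.2 k) ^ 2 : ℝ) : ℂ) : Matrix (Fin n) (Fin n) ℂ) :=
    Continuous.matrix_diagonal (by fun_prop)
  have e2 := continuous_cN continuous_fst hC hB N
  refine Continuous.mul (by fun_prop) (Continuous.add (by fun_prop) ?_)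
  exact Complex.continuous_re.comp e2

/-- **Block PT from block PW.** -/
theorem ptBlock (hPW : PWBlock n) : PTBlock n := by
  intro p g hg f M P Rc κ hκ hP hR S hS
  have hh : (f * fᴴ).PosSemidef := Matrix.posSemidef_self_mul_conjTranspose f
  obtain ⟨T, U, η, hη, hUT, hTU, hgT, hhT⟩ := exists_frame hg hh
  set ft : Matrix (Fin n) (Fin p) ℂ := U * f with hft
  have hTf : T * ft = f := by rw [hft, ← Matrix.mul_assoc, hTU, Matrix.one_mul]
  have hff : ft * ftᴴ = Matrix.diagonal fun k => ((η k : ℝ) : ℂ) := by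
    rw [hft, conjTranspose_mul]
    calc U * f * (fᴴ * Uᴴ) = U * (f * fᴴ) * Uᴴ := by simp only [Matrix.mul_assoc]
      _ = (U * T) * Matrix.diagonal (fun k => ((η k : ℝ) : ℂ)) * (Tᴴ * Uᴴ) := by
          rw [hhT]; simp only [Matrix.mul_assoc]
      _ = _ := by rw [← conjTranspose_mul, hUT, conjTranspose_one, Matrix.one_mul, Matrix.mul_one]
  set Mt : Fin n → Matrix (Fin n) (Fin p) ℂ := fun k => ∑ j, U k j • (U * M j) with hMt
  set N : Fin n → Matrix (Fin n) (Fin n) ℂ := fun k => M k * fᴴ with hN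
  set Nt : Fin n → Matrix (Fin n) (Fin n) ℂ := fun k => Mt k * ftᴴ with hNt
  set E : Fin n → Fin n → Matrix (Fin n) (Fin n) ℂ := fun k l => P k l + M k * (M l)ᴴ with hE
  -- continuity
  have hcc : ContinuousOn (fun s : ℝ => ((s, cc η s) : ℝ × (Fin n → ℝ))) (Set.Icc 0 S) :=
    continuousOn_id.prodMk (continuousOn_pi.2 fun k => continuousOn_cc hη S k)
  -- the integrand
  have hint : ∀ s ∈ Set.Icc (0 : ℝ) S, g.det.re * ((g + (s : ℂ) • (f * fᴴ))⁻¹).det.re *
        (cE (g + (s : ℂ) • (f * fᴴ))⁻¹ E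
          + 2 * ((g + (s : ℂ) • (f * fᴴ))⁻¹ * (f * fᴴ) * (g + (s : ℂ) • (f * fᴴ))⁻¹ * Rc).trace
          + cN s (g + (s : ℂ) • (f * fᴴ))⁻¹
              ((g + (s : ℂ) • (f * fᴴ))⁻¹ * g * (g + (s : ℂ) • (f * fᴴ))⁻¹) N).re =
        Phi U (f * fᴴ) Rc E N (s, cc η s) := by
    intro s hs
    rw [Cs_eq hη hUT hTU hgT hhT hs.1, Bs_eq hUT hTU hgT, det_prod hUT hgT, Phi]
  have hlow : ∀ s ∈ Set.Icc (0 : ℝ) S,
      κ * (Pi' η s * tt η s ^ 2) + (-2) * (Pi' η s * rr η s) + pw η Nt (s, cc η s) ≤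
        Phi U (f * fᴴ) Rc E N (s, cc η s) := by
    intro s hs
    have hc : ∀ k, 0 ≤ cc η s k := fun k => (cc_pos hη hs.1 k).le
    have a1 := curv_ge hUT hhT hκ hP hc
    have a2 := ricci_ge hη hUT hgT hhT hR (cc η s)
    have a3 := cE_diag_ge (cc η s) hc hff Mt
    have a4 := inv_frame hUT hTU s (Matrix.diagonal (fun k => ((cc η s k : ℝ) : ℂ)))
      (Matrix.diagonal (fun k => ((cc η s k ^ 2 : ℝ) : ℂ))) ft M
    rw [hTf] at a4
    have a5 : (cE (Cs U (cc η s)) E + 2 * (Cs U (cc η s) * (f * fᴴ) * Cs U (cc η s) * Rc).trace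
        + cN s (Cs U (cc η s)) (Bs U (cc η s)) N).re =
        (cE (Cs U (cc η s)) P).re + 2 * (Cs U (cc η s) * (f * fᴴ) * Cs U (cc η s) * Rc).trace.re
        + ((cE (Matrix.diagonal fun k => ((cc η s k : ℝ) : ℂ)) (fun k l => Mt k * (Mt l)ᴴ)).re
        + (cN s (Matrix.diagonal fun k => ((cc η s k : ℝ) : ℂ))
            (Matrix.diagonal fun k => (((cc η s k) ^ 2 : ℝ) : ℂ)) Nt).re) := by
      have b1 : cE (Cs U (cc η s)) E = cE (Cs U (cc η s)) P +
          cE (Cs U (cc η s)) (fun k l => M k * (M l)ᴴ) := cE_add _ _ _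
      have b2 : cE (Cs U (cc η s)) (fun k l => M k * (M l)ᴴ) +
          cN s (Cs U (cc η s)) (Bs U (cc η s)) N =
          cE (Matrix.diagonal fun k => ((cc η s k : ℝ) : ℂ)) (fun k l => Mt k * (Mt l)ᴴ)
        + cN s (Matrix.diagonal fun k => ((cc η s k : ℝ) : ℂ))
            (Matrix.diagonal fun k => (((cc η s k) ^ 2 : ℝ) : ℂ)) Nt := a4
      have b3 : ∀ z : ℂ, (2 * z).re = 2 * z.re := fun z => by simp
      rw [b1, ← Complex.add_re (cE (Matrix.diagonal fun k => ((cc η s k : ℝ) : ℂ))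
        (fun k l => Mt k * (Mt l)ᴴ)), ← b2]
      simp only [Complex.add_re, b3]
      ring
    rw [Phi]
    show _ ≤ Pi' η s * _
    rw [a5]
    have a6 : pw η Nt (s, cc η s) = Pi' η s *
      (∑ k, ∑ i, ∑ j, cc η s k * cc η s i * (η j)⁻¹ * (‖Nt k i j + Nt i k j‖ ^ 2 / 2)
        + (cN s (Matrix.diagonal fun k => ((cc η s k : ℝ) : ℂ))
            (Matrix.diagonal fun k => (((cc η s k) ^ 2 : ℝ) : ℂ)) Nt).re) := rfl
    rw [a6]
    have a7 : κ * tt η s ^ 2 - 2 * rr η s +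
      (∑ k, ∑ i, ∑ j, cc η s k * cc η s i * (η j)⁻¹ * (‖Nt k i j + Nt i k j‖ ^ 2 / 2)
        + (cN s (Matrix.diagonal fun k => ((cc η s k : ℝ) : ℂ))
            (Matrix.diagonal fun k => (((cc η s k) ^ 2 : ℝ) : ℂ)) Nt).re) ≤
        (cE (Cs U (cc η s)) P).re + 2 * (Cs U (cc η s) * (f * fᴴ) * Cs U (cc η s) * Rc).trace.re
        + ((cE (Matrix.diagonal fun k => ((cc η s k : ℝ) : ℂ)) (fun k l => Mt k * (Mt l)ᴴ)).re
        + (cN s (Matrix.diagonal fun k => ((cc η s k : ℝ) : ℂ))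
            (Matrix.diagonal fun k => (((cc η s k) ^ 2 : ℝ) : ℂ)) Nt).re) := by
      have c1 : κ * tt η s ^ 2 ≤ (cE (Cs U (cc η s)) P).re := a1
      have c2 : -rr η s ≤ (Cs U (cc η s) * (f * fᴴ) * Cs U (cc η s) * Rc).trace.re := a2
      have c3 : ∑ k, ∑ i, ∑ j, cc η s k * cc η s i * (η j)⁻¹ *
          (‖Nt k i j + Nt i k j‖ ^ 2 / 2) ≤
        (cE (Matrix.diagonal fun k => ((cc η s k : ℝ) : ℂ)) (fun k l => Mt k * (Mt l)ᴴ)).re := a3
      linarith
    have a8 := mul_le_mul_of_nonneg_left a7 (Pi_nonneg hη hs.1)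
    linarith
  rw [intervalIntegral.integral_congr (g := fun s => Phi U (f * fᴴ) Rc E N (s, cc η s))
    (by intro s hs; rw [Set.uIcc_of_le hS.le] at hs; exact hint s hs)]
  -- integrability
  have i1 : IntervalIntegrable (fun s => κ * (Pi' η s * tt η s ^ 2)) volume 0 S :=
    ii_of_cont hS.le (continuousOn_const.mul
      ((continuousOn_Pi hη S).mul ((continuousOn_tt hη S).pow 2)))
  have i2 : IntervalIntegrable (fun s => (-2) * (Pi' η s * rr η s)) volume 0 S :=
    ii_of_cont hS.le (continuousOn_const.mul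
      ((continuousOn_Pi hη S).mul (continuousOn_rr hη S)))
  have i3 : IntervalIntegrable (fun s => pw η Nt (s, cc η s)) volume 0 S :=
    ii_of_cont hS.le ((continuous_pw η Nt).comp_continuousOn hcc)
  have i4 : IntervalIntegrable (fun s => Phi U (f * fᴴ) Rc E N (s, cc η s)) volume 0 S :=
    ii_of_cont hS.le ((continuous_Phi U (f * fᴴ) Rc E N).comp_continuousOn hcc)
  have hmono := intervalIntegral.integral_mono_on hS.le ((i1.add i2).add i3) i4 hlow
  refine le_trans ?_ hmono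
  rw [intervalIntegral.integral_add (i1.add i2) i3, intervalIntegral.integral_add i1 i2,
    intervalIntegral.integral_const_mul, intervalIntegral.integral_const_mul]
  have j1 := int_tt_ge hη hS
  have j2 := int_rr_le hη hS.le
  have j3 : 0 ≤ ∫ s in (0 : ℝ)..S, pw η Nt (s, cc η s) :=
    hPW η hη Nt (fun k i j hj => N_zero hff hj (Mt k) i) S hS.le
  have j4 : (g⁻¹ * (f * fᴴ)).trace.re = ∑ k, η k := by
    have e1 : g⁻¹ = Cs U (fun _ => 1) := by
      have := Cs_eq hη hUT hTU hgT hhT (le_refl (0 : ℝ))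
      have e2 : cc η 0 = fun _ => 1 := by funext k; simp [cc]
      rw [e2] at this
      rw [← this]
      simp
    rw [e1, trace_Ch hUT hhT, Complex.ofReal_re]
    simp
  rw [j4]
  have j5 : κ / 2 * ((∑ k, η k) - n / S) ≤ κ * ∫ s in (0 : ℝ)..S, Pi' η s * tt η s ^ 2 := by
    have := mul_le_mul_of_nonneg_left j1 (by positivity : 0 ≤ κ / 2)
    linarith
  linarith

end Vale.Agent.P272.K.QN.H327
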