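import Vale.Agent.P272.K.QN.H327.Frame

/-!
# Block PT: lower bound for the torsion terms in a diagonal frame
-/

open scoped ComplexConjugate ComplexOrder
open Matrix

set_option linter.all false

noncomputable section

namespace Vale.Agent.P272.K.QN.H327

variable {n p : ℕ}

lemma norm_add_sq_c (a b : ℂ) : ‖a + b‖ ^ 2 = ‖a‖ ^ 2 + ‖b‖ ^ 2 + 2 * (a * conj b).re := by
  rw [← Complex.normSq_eq_norm_sq, ← Complex.normSq_eq_norm_sq, ← Complex.normSq_eq_norm_sq,
    Complex.normSq_add]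

lemma cE_diag_re (c : Fin n → ℝ) (M : Fin n → Matrix (Fin n) (Fin p) ℂ) :
    (cE (Matrix.diagonal fun k => ((c k : ℝ) : ℂ)) (fun k l => M k * (M l)ᴴ)).re =
      ∑ k, ∑ i, c k * c i * ((∑ q, ‖M k i q + M i k q‖ ^ 2) / 2) := by
  have e0 : cE (Matrix.diagonal fun k => ((c k : ℝ) : ℂ)) (fun k l => M k * (M l)ᴴ) =
      ∑ k, ∑ i, (c k : ℂ) * (c i : ℂ) * (∑ q, (M k i q * conj (M k i q) +
        M k i q * conj (M i k q))) := by
    simp only [cE, Finset.sum_add_distrib, mul_add]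
    congr 1
    · refine Finset.sum_congr rfl fun k _ => ?_
      rw [Finset.sum_eq_single k]
      · rw [Matrix.diagonal_apply_eq, Matrix.trace, Finset.mul_sum]
        refine Finset.sum_congr rfl fun i _ => ?_
        rw [Matrix.diag_apply, Matrix.diagonal_mul, Matrix.mul_apply, mul_assoc]
        rfl
      · intro l _ hl
        rw [Matrix.diagonal_apply_ne _ hl, zero_mul]
      · intro h; exact absurd (Finset.mem_univ _) h
    · refine Finset.sum_congr rfl fun k _ => Finset.sum_congr rfl fun l _ => ?_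
      rw [Matrix.mul_diagonal, Matrix.diagonal_mul, Matrix.mul_apply]
      have : (∑ j, M k l j * (M l)ᴴ j k) = ∑ q, M k l q * conj (M l k q) := rfl
      rw [this]
      ring
  rw [e0]
  have e1 : ∀ k i, ((c k : ℂ) * (c i : ℂ) * (∑ q, (M k i q * conj (M k i q) +
        M k i q * conj (M i k q)))).re =
      c k * c i * ∑ q, (‖M k i q‖ ^ 2 + (M k i q * conj (M i k q)).re) := by
    intro k i
    rw [mul_assoc, Complex.re_ofReal_mul, Complex.re_ofReal_mul, Complex.re_sum, mul_assoc]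
    congr 2
    refine Finset.sum_congr rfl fun q _ => ?_
    rw [Complex.add_re, Complex.mul_conj, Complex.ofReal_re, Complex.normSq_eq_norm_sq]
  rw [Complex.re_sum]
  simp only [Complex.re_sum (s := (Finset.univ : Finset (Fin n))), e1]
  have e2 : (∑ k, ∑ i, c k * c i * ∑ q, (‖M k i q‖ ^ 2 + (M k i q * conj (M i k q)).re)) =
      ∑ k, ∑ i, c k * c i * ∑ q, (‖M i k q‖ ^ 2 + (M k i q * conj (M i k q)).re) := by
    rw [Finset.sum_comm]
    refine Finset.sum_congr rfl fun k _ => Finset.sum_congr rfl fun i _ => ?_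
    rw [mul_comm (c i)]
    congr 1
    refine Finset.sum_congr rfl fun q _ => ?_
    congr 1
    rw [← Complex.conj_re, map_mul, Complex.conj_conj, mul_comm]
  have e3 : (∑ k, ∑ i, c k * c i * ((∑ q, ‖M k i q + M i k q‖ ^ 2) / 2)) =
      ((∑ k, ∑ i, c k * c i * ∑ q, (‖M k i q‖ ^ 2 + (M k i q * conj (M i k q)).re)) +
      ∑ k, ∑ i, c k * c i * ∑ q, (‖M i k q‖ ^ 2 + (M k i q * conj (M i k q)).re)) / 2 := by
    rw [← Finset.sum_add_distrib, Finset.sum_div]
    refine Finset.sum_congr rfl fun k _ => ?_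
    rw [← Finset.sum_add_distrib, Finset.sum_div]
    refine Finset.sum_congr rfl fun i _ => ?_
    rw [← mul_add, ← Finset.sum_add_distrib, mul_div_assoc]
    congr 2
    refine Finset.sum_congr rfl fun q _ => ?_
    rw [norm_add_sq_c]
    ring
  rw [e3, ← e2]
  ring

/-- Bessel for the symmetrised torsion -/
lemma cE_diag_ge (c : Fin n → ℝ) (hc : ∀ k, 0 ≤ c k) {η : Fin n → ℝ}
    {f : Matrix (Fin n) (Fin p) ℂ}
    (hf : f * fᴴ = Matrix.diagonal fun k => ((η k : ℝ) : ℂ))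
    (M : Fin n → Matrix (Fin n) (Fin p) ℂ) :
    ∑ k, ∑ i, ∑ j, c k * c i * (η j)⁻¹ * (‖(M k * fᴴ) i j + (M i * fᴴ) k j‖ ^ 2 / 2) ≤
      (cE (Matrix.diagonal fun k => ((c k : ℝ) : ℂ)) (fun k l => M k * (M l)ᴴ)).re := by
  rw [cE_diag_re]
  refine Finset.sum_le_sum fun k _ => Finset.sum_le_sum fun i _ => ?_
  have h1 := bessel hf (fun q => M k i q + M i k q)
  have h2 : ∀ j, (∑ q, (M k i q + M i k q) * conj (f j q)) =
      (M k * fᴴ) i j + (M i * fᴴ) k j := by
    intro j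
    rw [Matrix.mul_apply, Matrix.mul_apply, ← Finset.sum_add_distrib]
    refine Finset.sum_congr rfl fun q _ => ?_
    rw [add_mul]
    rfl
  simp only [h2] at h1
  have h3 : (∑ j, c k * c i * (η j)⁻¹ * (‖(M k * fᴴ) i j + (M i * fᴴ) k j‖ ^ 2 / 2)) =
      c k * c i * ((∑ j, (η j)⁻¹ * ‖(M k * fᴴ) i j + (M i * fᴴ) k j‖ ^ 2) / 2) := by
    rw [Finset.sum_div, Finset.mul_sum]
    refine Finset.sum_congr rfl fun j _ => ?_
    ring
  rw [h3]
  apply mul_le_mul_of_nonneg_left _ (mul_nonneg (hc k) (hc i))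
  linarith

lemma row_zero {η : Fin n → ℝ} {f : Matrix (Fin n) (Fin p) ℂ}
    (hf : f * fᴴ = Matrix.diagonal fun k => ((η k : ℝ) : ℂ)) {j : Fin n} (hj : η j = 0)
    (q : Fin p) : f j q = 0 := by
  have h1 : (f * fᴴ) j j = 0 := by rw [hf, Matrix.diagonal_apply_eq, hj]; simp
  have h2 : (f * fᴴ) j j = ((∑ q, ‖f j q‖ ^ 2 : ℝ) : ℂ) := by
    rw [Matrix.mul_apply, Complex.ofReal_sum]
    refine Finset.sum_congr rfl fun q _ => ?_
    have : f j q * fᴴ q j = f j q * conj (f j q) := rfl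
    rw [this, Complex.mul_conj, Complex.normSq_eq_norm_sq]
  rw [h2] at h1
  have h3 : (∑ q, ‖f j q‖ ^ 2) = 0 := by exact_mod_cast h1
  have h4 := (Finset.sum_eq_zero_iff_of_nonneg (fun q _ => by positivity)).1 h3 q
    (Finset.mem_univ _)
  simpa using h4

lemma N_zero {η : Fin n → ℝ} {f : Matrix (Fin n) (Fin p) ℂ}
    (hf : f * fᴴ = Matrix.diagonal fun k => ((η k : ℝ) : ℂ)) {j : Fin n} (hj : η j = 0)
    (M : Matrix (Fin n) (Fin p) ℂ) (i : Fin n) : (M * fᴴ) i j = 0 := by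
  rw [Matrix.mul_apply]
  refine Finset.sum_eq_zero fun q _ => ?_
  rw [Matrix.conjTranspose_apply, row_zero hf hj q]
  simp

end Vale.Agent.P272.K.QN.H327
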