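import Vale.Agent.P272.K.QN.Defs

/-!
# Block PT: simultaneous diagonalisation and the change of frame
-/

open scoped ComplexConjugate ComplexOrder
open Matrix

set_option linter.all false

noncomputable section

namespace Vale.Agent.P272.K.QN.H327

variable {n : ℕ}

/-- simultaneous diagonalisation of a positive definite and a semi-positive form -/
theorem exists_frame {g h : Matrix (Fin n) (Fin n) ℂ} (hg : g.PosDef) (hh : h.PosSemidef) :
    ∃ (T U : Matrix (Fin n) (Fin n) ℂ) (η : Fin n → ℝ), (∀ k, 0 ≤ η k) ∧ U * T = 1 ∧ T * U = 1 ∧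
      g = T * Tᴴ ∧ h = T * Matrix.diagonal (fun k => ((η k : ℝ) : ℂ)) * Tᴴ := by
  obtain ⟨B, hgB⟩ := C2.exists_factor hg.posSemidef
  -- g = Bᴴ * B
  have hdet : IsUnit B.det := by
    refine isUnit_iff_ne_zero.2 fun h0 => ?_
    have := hg.det_pos
    rw [hgB, Matrix.det_mul, h0, mul_zero] at this
    exact lt_irrefl _ this
  set T0 : Matrix (Fin n) (Fin n) ℂ := Bᴴ with hT0
  set U0 : Matrix (Fin n) (Fin n) ℂ := (B⁻¹)ᴴ with hU0
  have h1 : T0 * U0 = 1 := by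
    rw [hT0, hU0, ← conjTranspose_mul, Matrix.nonsing_inv_mul _ hdet, conjTranspose_one]
  have h2 : U0 * T0 = 1 := by
    rw [hT0, hU0, ← conjTranspose_mul, Matrix.mul_nonsing_inv _ hdet, conjTranspose_one]
  set h' : Matrix (Fin n) (Fin n) ℂ := U0 * h * U0ᴴ with hh'
  have hps : h'.PosSemidef := hh.mul_mul_conjTranspose_same U0
  have hher : h'.IsHermitian := hps.1
  set V : Matrix (Fin n) (Fin n) ℂ := (hher.eigenvectorUnitary : Matrix (Fin n) (Fin n) ℂ) with hV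
  have hVV : V * Vᴴ = 1 := by
    have := Unitary.coe_mul_star_self hher.eigenvectorUnitary
    simpa [Matrix.star_eq_conjTranspose] using this
  have hVV' : Vᴴ * V = 1 := by
    have := Unitary.coe_star_mul_self hher.eigenvectorUnitary
    simpa [Matrix.star_eq_conjTranspose] using this
  have hsp : h' = V * Matrix.diagonal (fun k => ((hher.eigenvalues k : ℝ) : ℂ)) * Vᴴ := by
    have := hher.spectral_theorem
    rw [Unitary.conjStarAlgAut_apply] at this
    exact this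
  refine ⟨T0 * V, Vᴴ * U0, hher.eigenvalues, fun k => hps.eigenvalues_nonneg k, ?_, ?_, ?_, ?_⟩
  · calc Vᴴ * U0 * (T0 * V) = Vᴴ * (U0 * T0) * V := by noncomm_ring
      _ = 1 := by rw [h2]; simp [hVV']
  · calc T0 * V * (Vᴴ * U0) = T0 * (V * Vᴴ) * U0 := by noncomm_ring
      _ = 1 := by rw [hVV]; simp [h1]
  · rw [conjTranspose_mul]
    calc g = Bᴴ * B := hgB
      _ = T0 * T0ᴴ := by rw [hT0, conjTranspose_conjTranspose]
      _ = T0 * (V * Vᴴ) * T0ᴴ := by rw [hVV]; simp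
      _ = _ := by noncomm_ring
  · rw [conjTranspose_mul]
    have e : T0 * (V * Matrix.diagonal (fun k => ((hher.eigenvalues k : ℝ) : ℂ)) * Vᴴ) * T0ᴴ = h := by
      rw [← hsp, hh']
      have h3 : U0ᴴ * T0ᴴ = 1 := by rw [← conjTranspose_mul, h1, conjTranspose_one]
      calc T0 * (U0 * h * U0ᴴ) * T0ᴴ = (T0 * U0) * h * (U0ᴴ * T0ᴴ) := by noncomm_ring
        _ = h := by rw [h1, h3]; simp
    rw [← e]
    noncomm_ring

/-! ### change of frame for sesquilinear contractions -/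

variable {p : ℕ}

/-- If `G (Y Tᴴ) (T Z) = Uᴴ G'(Y, Z) U` then the contraction is invariant under the frame change. -/
theorem frame_sum (T U : Matrix (Fin n) (Fin n) ℂ) (hUT : U * T = 1)
    (G G' : Matrix (Fin p) (Fin n) ℂ →ₗ[ℂ] Matrix (Fin n) (Fin p) ℂ →ₗ[ℂ]
      Matrix (Fin n) (Fin n) ℂ)
    (hG : ∀ Y Z, G (Y * Tᴴ) (T * Z) = Uᴴ * G' Y Z * U)
    (M : Fin n → Matrix (Fin n) (Fin p) ℂ) :
    (∑ k, ∑ l, G ((∑ b, T l b • (T * M b))ᴴ) (∑ a, T k a • (T * M a)) l k) =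
      ∑ k, ∑ l, G' (M l)ᴴ (M k) l k := by
  have hTU : Tᴴ * Uᴴ = 1 := by rw [← conjTranspose_mul, hUT, conjTranspose_one]
  have e1 : ∀ k l : Fin n, G ((∑ b, T l b • (T * M b))ᴴ) (∑ a, T k a • (T * M a)) l k =
      ∑ a, ∑ b, (Tᴴ b l * (Uᴴ * G' (M b)ᴴ (M a) * U) l k) * T k a := by
    intro k l
    have e2 : (∑ b, T l b • (T * M b))ᴴ = ∑ b, Tᴴ b l • ((M b)ᴴ * Tᴴ) := by
      rw [conjTranspose_sum]
      refine Finset.sum_congr rfl fun b _ => ?_
      rw [conjTranspose_smul, conjTranspose_mul]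
      rfl
    rw [e2]
    simp only [map_sum, map_smul, LinearMap.sum_apply, LinearMap.smul_apply, Matrix.sum_apply,
      Matrix.smul_apply, hG, smul_eq_mul, Finset.mul_sum]
    refine Finset.sum_congr rfl fun a _ => Finset.sum_congr rfl fun b _ => ?_
    ring
  simp only [e1]
  have e3 : ∀ a b : Fin n, (∑ k, ∑ l, Tᴴ b l * (Uᴴ * G' (M b)ᴴ (M a) * U) l k * T k a) =
      G' (M b)ᴴ (M a) b a := by
    intro a b
    have : (∑ k, ∑ l, Tᴴ b l * (Uᴴ * G' (M b)ᴴ (M a) * U) l k * T k a) =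
        (Tᴴ * (Uᴴ * G' (M b)ᴴ (M a) * U) * T) b a := by
      simp only [Matrix.mul_apply (M := Tᴴ * (Uᴴ * G' (M b)ᴴ (M a) * U)), Matrix.mul_apply (M := Tᴴ),
        Finset.sum_mul]
    rw [this]
    have : Tᴴ * (Uᴴ * G' (M b)ᴴ (M a) * U) * T = (Tᴴ * Uᴴ) * G' (M b)ᴴ (M a) * (U * T) := by
      noncomm_ring
    rw [this, hTU, hUT]
    simp
  calc _ = ∑ k, ∑ a, ∑ l, ∑ b, Tᴴ b l * (Uᴴ * G' (M b)ᴴ (M a) * U) l k * T k a :=
        Finset.sum_congr rfl fun k _ => Finset.sum_comm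
    _ = ∑ a, ∑ k, ∑ l, ∑ b, Tᴴ b l * (Uᴴ * G' (M b)ᴴ (M a) * U) l k * T k a := Finset.sum_comm
    _ = ∑ a, ∑ k, ∑ b, ∑ l, Tᴴ b l * (Uᴴ * G' (M b)ᴴ (M a) * U) l k * T k a :=
        Finset.sum_congr rfl fun a _ => Finset.sum_congr rfl fun k _ => Finset.sum_comm
    _ = ∑ a, ∑ b, ∑ k, ∑ l, Tᴴ b l * (Uᴴ * G' (M b)ᴴ (M a) * U) l k * T k a :=
        Finset.sum_congr rfl fun a _ => Finset.sum_comm
    _ = _ := by simp only [e3]

/-- the full sesquilinear integrand of the torsion terms -/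
def GGf (s : ℝ) (C B : Matrix (Fin n) (Fin n) ℂ) (f : Matrix (Fin n) (Fin p) ℂ)
    (Y : Matrix (Fin p) (Fin n) ℂ) (Z : Matrix (Fin n) (Fin p) ℂ) : Matrix (Fin n) (Fin n) ℂ :=
  (C * (Z * Y)).trace • C + C * (Z * Y) * C
  + (-(s : ℂ) • (((C * (f * Y)).trace * (C * (Z * fᴴ)).trace) • C
        + (C * (f * Y)).trace • (C * (Z * fᴴ) * C)
        + (C * (Z * fᴴ)).trace • (C * (f * Y) * C)
        + (C * (f * Y) * C * (Z * fᴴ)).trace • C
        + (C * (f * Y) * C * (Z * fᴴ) * C)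
        + (C * (Z * fᴴ) * C * (f * Y) * C))
      + (2 * (s : ℂ)) • (-((C * (f * Y)).trace • (C * (Z * fᴴ) * B))
        - (C * (Z * fᴴ) * B * (f * Y) * C)
        + (C * (Z * fᴴ)).trace • (C * (f * Y) * B)
        + (C * (f * Y) * B * (Z * fᴴ) * C)))

/-- the same as a bilinear map -/
def GG (s : ℝ) (C B : Matrix (Fin n) (Fin n) ℂ) (f : Matrix (Fin n) (Fin p) ℂ) :
    Matrix (Fin p) (Fin n) ℂ →ₗ[ℂ] Matrix (Fin n) (Fin p) ℂ →ₗ[ℂ] Matrix (Fin n) (Fin n) ℂ :=
  LinearMap.mk₂ ℂ (GGf s C B f)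
    (by
      intro Y Y' Z
      simp only [GGf, Matrix.mul_add, Matrix.add_mul, Matrix.trace_add, add_smul, smul_add, add_mul,
        mul_add, smul_neg, smul_sub]
      abel)
    (by
      intro c Y Z
      simp only [GGf, Matrix.mul_smul, Matrix.smul_mul, Matrix.trace_smul, smul_eq_mul]
      module)
    (by
      intro Y Z Z'
      simp only [GGf, Matrix.mul_add, Matrix.add_mul, Matrix.trace_add, add_smul, smul_add, add_mul,
        mul_add, smul_neg, smul_sub]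
      abel)
    (by
      intro c Y Z
      simp only [GGf, Matrix.mul_smul, Matrix.smul_mul, Matrix.trace_smul, smul_eq_mul]
      module)

@[simp] lemma GG_apply (s : ℝ) (C B : Matrix (Fin n) (Fin n) ℂ) (f : Matrix (Fin n) (Fin p) ℂ)
    (Y : Matrix (Fin p) (Fin n) ℂ) (Z : Matrix (Fin n) (Fin p) ℂ) :
    GG s C B f Y Z = GGf s C B f Y Z := rfl

section transform

variable {T U : Matrix (Fin n) (Fin n) ℂ} (hUT : U * T = 1)

include hUT

lemma r1 (A X : Matrix (Fin n) (Fin n) ℂ) :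
    (Uᴴ * A * U) * (T * X * Tᴴ) = Uᴴ * (A * X) * Tᴴ := by
  calc (Uᴴ * A * U) * (T * X * Tᴴ) = Uᴴ * A * (U * T) * X * Tᴴ := by noncomm_ring
    _ = _ := by rw [hUT]; noncomm_ring

lemma r2 (A : Matrix (Fin n) (Fin n) ℂ) : (Uᴴ * A * Tᴴ).trace = A.trace := by
  rw [Matrix.trace_mul_cycle, ← conjTranspose_mul, hUT, conjTranspose_one, Matrix.one_mul]

lemma r3 (A X : Matrix (Fin n) (Fin n) ℂ) :
    (Uᴴ * A * Tᴴ) * (Uᴴ * X * U) = Uᴴ * (A * X) * U := by
  have hTU : Tᴴ * Uᴴ = 1 := by rw [← conjTranspose_mul, hUT, conjTranspose_one]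
  calc (Uᴴ * A * Tᴴ) * (Uᴴ * X * U) = Uᴴ * A * (Tᴴ * Uᴴ) * X * U := by noncomm_ring
    _ = _ := by rw [hTU]; noncomm_ring

lemma GG_transform (s : ℝ) (C B : Matrix (Fin n) (Fin n) ℂ) (f : Matrix (Fin n) (Fin p) ℂ)
    (Y : Matrix (Fin p) (Fin n) ℂ) (Z : Matrix (Fin n) (Fin p) ℂ) :
    GG s (Uᴴ * C * U) (Uᴴ * B * U) (T * f) (Y * Tᴴ) (T * Z) =
      Uᴴ * GG s C B f Y Z * U := by
  have a1 : T * Z * (Y * Tᴴ) = T * (Z * Y) * Tᴴ := by simp only [Matrix.mul_assoc]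
  have a2 : T * f * (Y * Tᴴ) = T * (f * Y) * Tᴴ := by simp only [Matrix.mul_assoc]
  have a3 : T * Z * (T * f)ᴴ = T * (Z * fᴴ) * Tᴴ := by
    rw [conjTranspose_mul]; simp only [Matrix.mul_assoc]
  simp only [GG_apply, GGf, a1, a2, a3, r1 hUT, r2 hUT, r3 hUT]
  simp only [Matrix.mul_add, Matrix.add_mul, Matrix.mul_sub, Matrix.sub_mul, Matrix.mul_smul,
    Matrix.smul_mul, Matrix.mul_neg, Matrix.neg_mul]

end transform

/-- the sesquilinear sum is `cE + cN` -/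
lemma sum_GG (s : ℝ) (C B : Matrix (Fin n) (Fin n) ℂ) (f : Matrix (Fin n) (Fin p) ℂ)
    (M : Fin n → Matrix (Fin n) (Fin p) ℂ) :
    (∑ k, ∑ l, GG s C B f (M l)ᴴ (M k) l k) =
      cE C (fun k l => M k * (M l)ᴴ) + cN s C B (fun k => M k * fᴴ) := by
  simp only [cE, cN, ← Finset.sum_add_distrib]
  refine Finset.sum_congr rfl fun k _ => Finset.sum_congr rfl fun l _ => ?_
  simp only [GG_apply, GGf, Matrix.add_apply, Matrix.sub_apply, Matrix.neg_apply,
    Matrix.smul_apply, smul_eq_mul, conjTranspose_mul, conjTranspose_conjTranspose]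
  ring

lemma cE_add (C : Matrix (Fin n) (Fin n) ℂ) (E F : Fin n → Fin n → Matrix (Fin n) (Fin n) ℂ) :
    cE C (fun k l => E k l + F k l) = cE C E + cE C F := by
  simp only [cE, ← Finset.sum_add_distrib]
  refine Finset.sum_congr rfl fun k _ => Finset.sum_congr rfl fun l _ => ?_
  simp only [Matrix.mul_add, Matrix.add_mul, Matrix.trace_add, Matrix.add_apply]
  ring

/-- invariance of the torsion terms under a change of frame -/
theorem inv_frame {T U : Matrix (Fin n) (Fin n) ℂ} (hUT : U * T = 1) (hTU : T * U = 1) (s : ℝ)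
    (C B : Matrix (Fin n) (Fin n) ℂ) (f : Matrix (Fin n) (Fin p) ℂ)
    (M : Fin n → Matrix (Fin n) (Fin p) ℂ) :
    cE (Uᴴ * C * U) (fun k l => M k * (M l)ᴴ) +
        cN s (Uᴴ * C * U) (Uᴴ * B * U) (fun k => M k * (T * f)ᴴ) =
      cE C (fun k l => (∑ j, U k j • (U * M j)) * (∑ j, U l j • (U * M j))ᴴ) +
        cN s C B (fun k => (∑ j, U k j • (U * M j)) * fᴴ) := by
  rw [← sum_GG, ← sum_GG s C B f (fun k => ∑ j, U k j • (U * M j))]
  rw [← frame_sum T U hUT (GG s (Uᴴ * C * U) (Uᴴ * B * U) (T * f)) (GG s C B f)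
    (fun Y Z => GG_transform hUT s C B f Y Z)]
  have e : ∀ k, (∑ a, T k a • (T * ∑ j, U a j • (U * M j))) = M k := by
    intro k
    have e1 : ∀ a, T k a • (T * ∑ j, U a j • (U * M j)) = ∑ j, (T k a * U a j) • M j := by
      intro a
      rw [Matrix.mul_sum, Finset.smul_sum]
      refine Finset.sum_congr rfl fun j _ => ?_
      rw [Matrix.mul_smul, ← Matrix.mul_assoc, hTU, Matrix.one_mul, smul_smul]
    simp only [e1]
    rw [Finset.sum_comm]
    simp only [← Finset.sum_smul, ← Matrix.mul_apply, hTU, Matrix.one_apply, ite_smul, one_smul,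
      zero_smul, Finset.sum_ite_eq, Finset.mem_univ, if_true]
  simp only [e]

/-! ### the diagonal frame: Bessel inequality -/

lemma bessel {η : Fin n → ℝ} {f : Matrix (Fin n) (Fin p) ℂ}
    (hf : f * fᴴ = Matrix.diagonal fun k => ((η k : ℝ) : ℂ)) (v : Fin p → ℂ) :
    ∑ j, (η j)⁻¹ * ‖∑ q, v q * conj (f j q)‖ ^ 2 ≤ ∑ q, ‖v q‖ ^ 2 := by
  set D : Matrix (Fin n) (Fin n) ℂ := Matrix.diagonal fun k => (((η k)⁻¹ : ℝ) : ℂ) with hD
  set Q : Matrix (Fin p) (Fin p) ℂ := fᴴ * D * f with hQ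
  have hDH : Dᴴ = D := by
    rw [hD, Matrix.diagonal_conjTranspose]
    congr 1
    ext k
    simp
  have hQH : Qᴴ = Q := by
    rw [hQ, conjTranspose_mul, conjTranspose_mul, conjTranspose_conjTranspose, hDH,
      Matrix.mul_assoc]
  have hQQ : Q * Q = Q := by
    have e1 : D * (f * fᴴ) * D = D := by
      rw [hf, hD, Matrix.diagonal_mul_diagonal, Matrix.diagonal_mul_diagonal]
      congr 1
      ext k
      by_cases hk : η k = 0
      · simp [hk]
      · have : ((η k : ℝ) : ℂ) ≠ 0 := by exact_mod_cast hk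
        push_cast
        field_simp
    calc Q * Q = fᴴ * (D * (f * fᴴ) * D) * f := by rw [hQ]; simp only [Matrix.mul_assoc]
      _ = Q := by rw [e1]
  have hps : (1 - Q).PosSemidef := by
    have : (1 - Q) = (1 - Q) * (1 - Q)ᴴ := by
      rw [conjTranspose_sub, conjTranspose_one, hQH]
      calc (1 - Q) = 1 - Q - Q + Q := by abel
        _ = 1 - Q - Q + Q * Q := by rw [hQQ]
        _ = _ := by noncomm_ring
    rw [this]
    exact Matrix.posSemidef_self_mul_conjTranspose _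
  have h0 : 0 ≤ (P1.herm (1 - Q) v).re := quad_nonneg hps v
  have e2 : (P1.herm (1 - Q) v) = ((∑ q, ‖v q‖ ^ 2 : ℝ) : ℂ) -
      ((∑ j, (η j)⁻¹ * ‖∑ q, v q * conj (f j q)‖ ^ 2 : ℝ) : ℂ) := by
    have e3 : P1.herm (1 - Q) v = P1.herm 1 v - P1.herm Q v := by
      simp only [P1.herm, Matrix.sub_apply, sub_mul, Finset.sum_sub_distrib]
    have e4 : P1.herm 1 v = ((∑ q, ‖v q‖ ^ 2 : ℝ) : ℂ) := by
      simp only [P1.herm, Matrix.one_apply, ite_mul, one_mul, zero_mul, Finset.sum_ite_eq,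
        Finset.mem_univ, if_true]
      push_cast
      refine Finset.sum_congr rfl fun q _ => ?_
      rw [Complex.mul_conj, Complex.normSq_eq_norm_sq]
      push_cast
      rfl
    have e5 : P1.herm Q v = ((∑ j, (η j)⁻¹ * ‖∑ q, v q * conj (f j q)‖ ^ 2 : ℝ) : ℂ) := by
      have e6 : ∀ i j, Q i j = ∑ a, conj (f a i) * (((η a)⁻¹ : ℝ) : ℂ) * f a j := by
        intro i j
        rw [hQ, hD, Matrix.mul_apply]
        refine Finset.sum_congr rfl fun a _ => ?_
        rw [Matrix.mul_diagonal]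
        rfl
      simp only [P1.herm, e6, Finset.sum_mul]
      have e7 : ∀ a : Fin n, (∑ i, ∑ j, conj (f a i) * (((η a)⁻¹ : ℝ) : ℂ) * f a j *
          (v i * conj (v j))) = (((η a)⁻¹ * ‖∑ q, v q * conj (f a q)‖ ^ 2 : ℝ) : ℂ) := by
        intro a
        have : (((η a)⁻¹ * ‖∑ q, v q * conj (f a q)‖ ^ 2 : ℝ) : ℂ) = (((η a)⁻¹ : ℝ) : ℂ) *
            ((∑ q, v q * conj (f a q)) * conj (∑ q, v q * conj (f a q))) := by
          rw [Complex.mul_conj, Complex.normSq_eq_norm_sq]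
          push_cast
          rfl
        rw [this, map_sum, Finset.sum_mul_sum, Finset.mul_sum]
        refine Finset.sum_congr rfl fun i _ => ?_
        rw [Finset.mul_sum]
        refine Finset.sum_congr rfl fun j _ => ?_
        simp only [map_mul, Complex.conj_conj]
        ring
      have e8 : (∑ i, ∑ j, ∑ a, conj (f a i) * (((η a)⁻¹ : ℝ) : ℂ) * f a j * (v i * conj (v j))) =
          ∑ a, ∑ i, ∑ j, conj (f a i) * (((η a)⁻¹ : ℝ) : ℂ) * f a j * (v i * conj (v j)) := by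
        calc _ = ∑ i, ∑ a, ∑ j, conj (f a i) * (((η a)⁻¹ : ℝ) : ℂ) * f a j * (v i * conj (v j)) :=
              Finset.sum_congr rfl fun i _ => Finset.sum_comm
          _ = _ := Finset.sum_comm
      rw [e8, Complex.ofReal_sum]
      exact Finset.sum_congr rfl fun a _ => e7 a
    rw [e3, e4, e5]
  rw [e2, Complex.sub_re, Complex.ofReal_re, Complex.ofReal_re] at h0
  linarith

end Vale.Agent.P272.K.QN.H327
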